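import Vale.Agent.P355.H998.Q.Rs
import Vale.Agent.P355.H998.Q.Fin
import Vale.Agent.P355.H998.R.Wk

/-! Residual of many sparse lists, wide and narrow identifiers. -/

namespace Vale.Agent.P355.H998.Q

open Finset Vale.Agent.P355 Vale.Agent.P355.H387 H138 H693.Inj Vale.Agent.P355.H998.R

variable {F : Bool → Mt → ℝ}

/-! ### Narrow entries to wide entries -/

/-- the first `n` digits. -/
def trN (n X : ℕ) : ℕ := Nat.land X (Nat.sub (Nat.shiftLeft (nat_lit 1) (Nat.mul (nat_lit 80) n))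
  (nat_lit 1))

/-- narrow entries to wide entries. -/
def cvX (n X : ℕ) : ℕ :=
  (fun lo : ℕ => Nat.add lo (Nat.shiftLeft (Nat.sub (trN n X) lo) (nat_lit 4)))
    (Nat.land (trN n X) (Nat.mul (onX n) (nat_lit 262143)))

/-- the digits are less than `2 ^ 76`. -/
def ckN (n X : ℕ) : Bool := Nat.beq (Nat.land (trN n X)
  (Nat.mul (onX n) (nat_lit 1133367955888714851287040))) (nat_lit 0)

theorem trN_eq (n X : ℕ) : trN n X = ofB n fun j => en X j := by
  have e1 : trN n X = X % 2 ^ (80 * n) := by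
    have : Nat.sub (Nat.shiftLeft 1 (Nat.mul 80 n)) 1 = 2 ^ (80 * n) - 1 := by
      have e : Nat.shiftLeft 1 (Nat.mul 80 n) = 1 * 2 ^ (80 * n) := Nat.shiftLeft_eq _ _
      rw [e, one_mul]; rfl
    unfold trN
    rw [this]
    exact Nat.and_two_pow_sub_one_eq_mod _ _
  rw [e1]
  have h := R.ofB_en n (X % 2 ^ (80 * n)) (Nat.mod_lt _ (by positivity))
  rw [h]
  refine R.ofB_congr fun j hj => ?_
  unfold en
  apply Nat.eq_of_testBit_eq
  intro t
  rw [Nat.testBit_mod_two_pow, Nat.testBit_mod_two_pow, Nat.testBit_shiftRight,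
    Nat.testBit_shiftRight, Nat.testBit_mod_two_pow]
  by_cases ht : t < 80
  · have h1 : 80 * j + t < 80 * n := by omega
    simp [ht, h1]
  · simp [ht]

/-- converted entry. -/
def cvE (e : ℕ) : ℕ := e % 2 ^ 18 + (e - e % 2 ^ 18) * 16

theorem cvX_eq (n X : ℕ) : cvX n X = ofB n fun j => cvE (en X j) := by
  have e1 : Nat.land (trN n X) (Nat.mul (onX n) (nat_lit 262143)) = ofB n fun j => en X j % 2 ^ 18 := by
    rw [trN_eq]
    have h2 : Nat.mul (onX n) (nat_lit 262143) = ofB n fun _ => 2 ^ 18 - 1 := by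
      have : Nat.mul (onX n) (nat_lit 262143) = onX n * 262143 := rfl
      rw [this, onX_eq, ofB_mul]
      exact R.ofB_congr fun i _ => by norm_num
    rw [h2, land_ofB n _ _ (fun i _ => en_lt X i) (fun i _ => by norm_num)]
    exact R.ofB_congr fun i _ => Nat.and_two_pow_sub_one_eq_mod _ 18
  have e2 : cvX n X = ofB n (fun j => en X j % 2 ^ 18)
      + (ofB n (fun j => en X j) - ofB n (fun j => en X j % 2 ^ 18)) * 2 ^ 4 := by
    rw [← e1, ← trN_eq]
    show _ + Nat.shiftLeft _ 4 = _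
    rw [shl_eq]
    rfl
  rw [e2, R.ofB_sub fun i _ => Nat.mod_le _ _, ofB_mul, R.ofB_add]
  exact R.ofB_congr fun i _ => by unfold cvE; norm_num

theorem cvE_lt {e : ℕ} (h : e < 2 ^ 76) : cvE e < 2 ^ 80 := by
  unfold cvE
  have h1 : e % 2 ^ 18 ≤ e := Nat.mod_le _ _
  norm_num at h h1 ⊢
  omega

theorem cvE_ev (ct : CT) (e : ℕ) : ev F ct (cvE e) = H387.ev F ct e := by
  obtain ⟨a, b, ha, he⟩ : ∃ a b, a < 2 ^ 18 ∧ e = a + b * 2 ^ 18 :=
    ⟨e % 2 ^ 18, e / 2 ^ 18, Nat.mod_lt _ (by positivity), by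
      have := Nat.mod_add_div e (2 ^ 18)
      rw [mul_comm (2 ^ 18)] at this
      exact this.symm⟩
  have e0 : e % 2 ^ 18 = a := by rw [he, Nat.add_mul_mod_self_right, Nat.mod_eq_of_lt ha]
  have e1 : cvE e = a + b * 2 ^ 22 := by
    unfold cvE
    rw [e0, he]
    have : a + b * 2 ^ 18 - a = b * 2 ^ 18 := by omega
    rw [this]
    ring
  rw [e1, he]
  unfold ev H387.ev
  have sr : ∀ x k, Nat.shiftRight x k = x / 2 ^ k := fun x k => Nat.shiftRight_eq_div_pow _ _
  have a1 : Nat.shiftRight (a + b * 2 ^ 22) 22 = b := by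
    rw [sr, Nat.add_mul_div_right _ _ (by positivity),
      Nat.div_eq_of_lt (lt_trans ha (by norm_num)), zero_add]
  have a2 : Nat.shiftRight (a + b * 2 ^ 18) 18 = b := by
    rw [sr, Nat.add_mul_div_right _ _ (by positivity), Nat.div_eq_of_lt ha, zero_add]
  have a3 : Nat.shiftRight (a + b * 2 ^ 22) 23 = b / 2 := by
    rw [sr, show (2 : ℕ) ^ 23 = 2 ^ 22 * 2 by norm_num, ← Nat.div_div_eq_div_mul, ← sr, a1]
  have a4 : Nat.shiftRight (a + b * 2 ^ 18) 19 = b / 2 := by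
    rw [sr, show (2 : ℕ) ^ 19 = 2 ^ 18 * 2 by norm_num, ← Nat.div_div_eq_div_mul, ← sr, a2]
  have m16 : ∀ x, Nat.land x 65535 = x % 2 ^ 16 := fun x => Nat.and_two_pow_sub_one_eq_mod _ 16
  have m12 : ∀ x, Nat.land x 4095 = x % 2 ^ 12 := fun x => Nat.and_two_pow_sub_one_eq_mod _ 12
  have m6 : ∀ x, Nat.land x 63 = x % 2 ^ 6 := fun x => Nat.and_two_pow_sub_one_eq_mod _ 6
  have a5 : Nat.land (Nat.shiftRight (a + b * 2 ^ 22) 6) 65535 = a / 2 ^ 6 := by
    rw [m16, sr]
    have : (a + b * 2 ^ 22) / 2 ^ 6 = a / 2 ^ 6 + b * 2 ^ 16 := by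
      rw [show b * 2 ^ 22 = b * 2 ^ 16 * 2 ^ 6 by ring, Nat.add_mul_div_right _ _ (by positivity)]
    rw [this, Nat.add_mul_mod_self_right, Nat.mod_eq_of_lt]
    norm_num at ha ⊢
    omega
  have a6 : Nat.land (Nat.shiftRight (a + b * 2 ^ 18) 6) 4095 = a / 2 ^ 6 := by
    rw [m12, sr]
    have : (a + b * 2 ^ 18) / 2 ^ 6 = a / 2 ^ 6 + b * 2 ^ 12 := by
      rw [show b * 2 ^ 18 = b * 2 ^ 12 * 2 ^ 6 by ring, Nat.add_mul_div_right _ _ (by positivity)]
    rw [this, Nat.add_mul_mod_self_right, Nat.mod_eq_of_lt]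
    norm_num at ha ⊢
    omega
  have a7 : Nat.land (a + b * 2 ^ 22) 63 = Nat.land (a + b * 2 ^ 18) 63 := by
    rw [m6, m6, show b * 2 ^ 22 = b * 2 ^ 16 * 2 ^ 6 by ring,
      show b * 2 ^ 18 = b * 2 ^ 12 * 2 ^ 6 by ring, Nat.add_mul_mod_self_right,
      Nat.add_mul_mod_self_right]
  rw [a1, a2, a3, a4, a5, a6, a7]

theorem ckN_lt {n X : ℕ} (h : ckN n X = true) : ∀ j < n, en X j < 2 ^ 76 := by
  have h1 := Nat.eq_of_beq_eq_true h
  rw [trN_eq] at h1
  have h2 : Nat.mul (onX n) (nat_lit 1133367955888714851287040) = ofB n fun _ => 2 ^ 80 - 2 ^ 76 := by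
    have : Nat.mul (onX n) (nat_lit 1133367955888714851287040)
      = onX n * 1133367955888714851287040 := rfl
    rw [this, onX_eq, ofB_mul]
    exact R.ofB_congr fun i _ => by norm_num
  rw [h2, land_ofB n _ _ (fun i _ => en_lt X i) (fun i _ => by norm_num)] at h1
  intro j hj
  have h3 : en X j &&& (2 ^ 80 - 2 ^ 76) = 0 := R.ofB_zero_iff h1 j hj
  have h4 : en X j = en X j % 2 ^ 76 := by
    apply Nat.eq_of_testBit_eq
    intro t
    rw [Nat.testBit_mod_two_pow]
    by_cases q1 : t < 76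
    · simp [q1]
    · by_cases q2 : t < 80
      · have h7 := congrArg (fun Y => Nat.testBit Y t) h3
        simp only [Nat.testBit_and, Nat.zero_testBit] at h7
        have h8 : (2 ^ 80 - 2 ^ 76 : ℕ).testBit t = true := by
          have h9 : (2 ^ 80 - 2 ^ 76 : ℕ) = 2 ^ 76 * (2 ^ 4 - 1) := by norm_num
          rw [h9, Nat.testBit_two_pow_mul, Nat.testBit_two_pow_sub_one]
          have a1 : t ≥ 76 := by omega
          have a2 : t - 76 < 4 := by omega
          simp [a1, a2]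
        rw [h8, Bool.and_true] at h7
        simp [q1, h7]
      · have h9 : (en X j).testBit t = false := by
          apply Nat.testBit_lt_two_pow
          exact lt_of_lt_of_le (en_lt X j) (Nat.pow_le_pow_right (by norm_num) (by omega))
        simp [q1, h9]
  rw [h4]
  exact Nat.mod_lt _ (by positivity)

theorem one_piece (ct : CT) (n X : ℕ) :
    evL F ct (List.cons (n, X) List.nil) = ∑ j ∈ range n, ev F ct (en X j) := by
  unfold evL
  rw [List.map_cons, List.sum_cons, List.map_nil, List.sum_nil, add_zero, evN_sum]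
  rfl

theorem one_piece_narrow (ct : CT) (n X : ℕ) :
    H387.evL F ct (List.cons (n, X) List.nil) = ∑ j ∈ range n, H387.ev F ct (en X j) := by
  unfold H387.evL
  rw [List.map_cons, List.sum_cons, List.map_nil, List.sum_nil, add_zero, R.evN_sum]
  rfl

theorem en_ofB {n : ℕ} {f : ℕ → ℕ} (hf : ∀ i < n, f i < 2 ^ 80) {j : ℕ} (hj : j < n) :
    en (ofB n f) j = f j := by
  have h1 := R.ofB_en n (ofB n f) (R.ofB_lt n f hf)
  exact (R.ofB_inj (fun i _ => en_lt _ i) hf h1.symm) j hj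

theorem cvX_ev {n X : ℕ} (h : ckN n X = true) (ct : CT) :
    evL F ct (List.cons (n, cvX n X) List.nil) = H387.evL F ct (List.cons (n, X) List.nil) := by
  rw [one_piece, one_piece_narrow]
  refine sum_congr rfl fun j hj => ?_
  rw [cvX_eq, en_ofB (fun i hi => cvE_lt (ckN_lt h i hi)) (mem_range.1 hj), cvE_ev]

/-! ### Blocks -/

/-- a piece: wide (`k = 0`) or narrow. -/
def pcQ (k n X : ℕ) : List (ℕ × ℕ) :=
  List.cons (n, Bool.rec (motive := fun _ => ℕ) (cvX n X) X (Nat.beq k (nat_lit 0))) List.nil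

/-- check of a narrow piece. -/
def ckQ (k n X : ℕ) : Bool :=
  Bool.rec (motive := fun _ => Bool) (ckN n X) true (Nat.beq k (nat_lit 0))

/-- value of a list, wide (`k = 0`) or narrow. -/
noncomputable def vQ (F : Bool → Mt → ℝ) (ct : CT) (k : ℕ) (m : List (ℕ × ℕ)) : ℝ :=
  if k = 0 then evL F ct m else H387.evL F ct m

/-- block `b` of a list. -/
def blQ (k : ℕ) (m : List (ℕ × ℕ)) (K b : ℕ) : List (ℕ × ℕ) :=
  pcQ k (Nat.sub (ofK K (Nat.succ b)) (ofK K b))
    (wkX m (ofK K b) (Nat.sub (ofK K (Nat.succ b)) (ofK K b)))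

/-- check of block `b` of a list. -/
def kbQ (k : ℕ) (m : List (ℕ × ℕ)) (K b : ℕ) : Bool :=
  ckQ k (Nat.sub (ofK K (Nat.succ b)) (ofK K b))
    (wkX m (ofK K b) (Nat.sub (ofK K (Nat.succ b)) (ofK K b)))

/-- value of an entry of a list. -/
noncomputable def eQ (F : Bool → Mt → ℝ) (ct : CT) (k e : ℕ) : ℝ :=
  if k = 0 then ev F ct e else H387.ev F ct e

theorem blQ_ev (ct : CT) {k : ℕ} {m : List (ℕ × ℕ)} {K b : ℕ} (h : kbQ k m K b = true) :
    evL F ct (blQ k m K b)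
      = ∑ j ∈ range (ofK K (b + 1) - ofK K b), eQ F ct k (en (jn m) (ofK K b + j)) := by
  obtain ⟨n, hn⟩ : ∃ n, n = ofK K (b + 1) - ofK K b := ⟨_, rfl⟩
  have hb : blQ k m K b = pcQ k n (wkX m (ofK K b) n) := by rw [hn]; rfl
  have hc : ckQ k n (wkX m (ofK K b) n) = true := by rw [hn]; exact h
  rw [hb, ← hn]
  have hw := wkX_en m (ofK K b) n
  generalize wkX m (ofK K b) n = X at hc hw ⊢
  by_cases hk : k = 0
  · subst hk
    have e1 : pcQ 0 n X = List.cons (n, X) List.nil := rfl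
    rw [e1, one_piece]
    exact sum_congr rfl fun j hj => by rw [hw j (mem_range.1 hj), eQ, if_pos rfl]
  · have e0 : Nat.beq k (nat_lit 0) = false := by
      rw [Bool.eq_false_iff]
      intro h6
      exact hk (Nat.eq_of_beq_eq_true h6)
    have e1 : pcQ k n X = List.cons (n, cvX n X) List.nil := by
      unfold pcQ
      rw [e0]
    have e2 : ckN n X = true := by
      unfold ckQ at hc
      rw [e0] at hc
      exact hc
    rw [e1, cvX_ev e2, one_piece_narrow]
    exact sum_congr rfl fun j hj => by rw [hw j (mem_range.1 hj), eQ, if_neg hk]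

theorem evL_sumQ (ct : CT) (k : ℕ) (m : List (ℕ × ℕ)) :
    vQ F ct k m = ∑ j ∈ range (nn m), eQ F ct k (en (jn m) j) := by
  unfold vQ eQ
  by_cases hk : k = 0
  · rw [if_pos hk, evL_sum]
    exact sum_congr rfl fun j _ => by rw [if_pos hk]
  · rw [if_neg hk, R.evL_sum]
    exact sum_congr rfl fun j _ => by rw [if_neg hk]

theorem monoQ_sum (ct : CT) (k : ℕ) (m : List (ℕ × ℕ)) (K : ℕ) (h0 : ofK K 0 = 0) (n : ℕ)
    (hb : ∀ b < n, kbQ k m K b = true) : monoK K n = true →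
    ∑ b ∈ range n, evL F ct (blQ k m K b) = ∑ j ∈ range (ofK K n), eQ F ct k (en (jn m) j) := by
  induction n with
  | zero => intro _; rw [h0]; simp
  | succ n ih =>
    intro h
    obtain ⟨h1, h2⟩ := bct (t := monoK K n) (b := Nat.ble (ofK K n) (ofK K (Nat.succ n))) h
    have h3 : ofK K n ≤ ofK K (n + 1) := Nat.le_of_ble_eq_true h1
    rw [sum_range_succ, ih (fun b hb' => hb b (by omega)) h2, blQ_ev ct (hb n (by omega))]
    obtain ⟨d, hd⟩ : ∃ d, ofK K (n + 1) = ofK K n + d := ⟨_, (Nat.add_sub_cancel' h3).symm⟩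
    rw [hd, Nat.add_sub_cancel_left, sum_range_add]

theorem okQ_sum {NB k K : ℕ} {m : List (ℕ × ℕ)} (h : okK NB m K = true)
    (hb : ∀ b < NB, kbQ k m K b = true) (ct : CT) :
    ∑ b ∈ range NB, evL F ct (blQ k m K b) = vQ F ct k m := by
  obtain ⟨h1, h2⟩ := bct (t := Bool.rec (motive := fun _ => Bool) false (monoK K NB)
    (Nat.beq (ofK K NB) (nn m))) (b := Nat.beq (ofK K 0) 0) h
  obtain ⟨h3, h4⟩ := bct h2
  rw [monoQ_sum ct k m K (Nat.eq_of_beq_eq_true h1) NB hb h4, Nat.eq_of_beq_eq_true h3, evL_sumQ]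

/-- all offset tables are valid. -/
def okA (NB : ℕ) (L : List (List (ℕ × ℕ) × ℕ × ℕ)) : Bool :=
  List.rec (motive := fun _ => Bool) true (fun p _ ih => Bool.rec (motive := fun _ => Bool) false ih
    (okK NB p.1 p.2.1)) L

/-- block `b` of all lists. -/
def colQ (b : ℕ) (L : List (List (ℕ × ℕ) × ℕ × ℕ)) : List (List (ℕ × ℕ)) :=
  List.rec (motive := fun _ => List (List (ℕ × ℕ))) List.nil
    (fun p _ ih => List.cons (blQ p.2.2 p.1 p.2.1 b) ih) L

/-- checks for block `b` of all lists. -/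
def kcQ (b : ℕ) (L : List (List (ℕ × ℕ) × ℕ × ℕ)) : Bool :=
  List.rec (motive := fun _ => Bool) true
    (fun p _ ih => Bool.rec (motive := fun _ => Bool) false ih (kbQ p.2.2 p.1 p.2.1 b)) L

theorem okA_sum {NB : ℕ} {L : List (List (ℕ × ℕ) × ℕ × ℕ)} (h : okA NB L = true)
    (hb : ∀ b < NB, kcQ b L = true) (ct : CT) :
    ∑ b ∈ range NB, ((colQ b L).map (evL F ct)).sum = (L.map fun p => vQ F ct p.2.2 p.1).sum := by
  induction L with
  | nil => simp [colQ]
  | cons p L ih =>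
    obtain ⟨h1, h2⟩ := bct (t := okA NB L) (b := okK NB p.1 p.2.1) h
    have hb1 : ∀ b < NB, kbQ p.2.2 p.1 p.2.1 b = true := fun b hb' =>
      (bct (t := kcQ b L) (b := kbQ p.2.2 p.1 p.2.1 b) (hb b hb')).1
    have hb2 : ∀ b < NB, kcQ b L = true := fun b hb' =>
      (bct (t := kcQ b L) (b := kbQ p.2.2 p.1 p.2.1 b) (hb b hb')).2
    rw [List.map_cons, List.sum_cons, ← ih h2 hb2, ← okQ_sum h1 hb1 ct, ← sum_add_distrib]
    exact sum_congr rfl fun b _ => rfl

/-- residual of block `b` (4096 identifiers). -/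
def rQ (BL AL : List (List (ℕ × ℕ) × ℕ × ℕ)) (b E : ℕ) : Bool :=
  Bool.rec (motive := fun _ => Bool) false
    (Bool.rec (motive := fun _ => Bool) false
      (resX (nat_lit 4096) (nat_lit 12) (Nat.mul (nat_lit 4096) b) (colQ b BL) (colQ b AL) E)
      (kcQ b AL)) (kcQ b BL)

/-- residuals of consecutive blocks. -/
def HQ (BL AL : List (List (ℕ × ℕ) × ℕ × ℕ)) (b : ℕ) (Es : List ℕ) : Prop :=
  ∀ i < Es.length, rQ BL AL (b + i) (Es.getD i 0) = true

theorem HQ.nil {BL AL : List (List (ℕ × ℕ) × ℕ × ℕ)} {b : ℕ} : HQ BL AL b [] := by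
  intro i hi; simp at hi

theorem HQ.cons {BL AL : List (List (ℕ × ℕ) × ℕ × ℕ)} {b E : ℕ} {Es : List ℕ}
    (h : rQ BL AL b E = true) (h' : HQ BL AL (b + 1) Es) : HQ BL AL b (E :: Es) := by
  intro i hi
  match i with
  | 0 => simpa using h
  | i + 1 =>
    have := h' i (by simpa using hi)
    rw [show b + (i + 1) = b + 1 + i from by ring]
    simpa using this

/-- **The total residual.** -/
theorem totalQ {c : ℝ} (hc : ∀ b M, |F b M| ≤ c) {ct : CT} {NB : ℕ}
    {BL AL : List (List (ℕ × ℕ) × ℕ × ℕ)} {Es : List ℕ} (hB : okA NB BL = true)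
    (hA : okA NB AL = true) (hE : Es.length = NB) (h : HQ BL AL 0 Es) :
    |(BL.map fun p => vQ F ct p.2.2 p.1).sum - (AL.map fun p => vQ F ct p.2.2 p.1).sum|
      ≤ c * ((Es.sum : ℕ) : ℝ) := by
  have hh : ∀ b < NB, kcQ b BL = true ∧ kcQ b AL = true ∧ resX (nat_lit 4096) (nat_lit 12)
      (Nat.mul (nat_lit 4096) b) (colQ b BL) (colQ b AL) (Es.getD b 0) = true := by
    intro b hb
    have h1 := h b (by rw [hE]; exact hb)
    rw [zero_add] at h1
    obtain ⟨h2, h3⟩ := bct (t := Bool.rec (motive := fun _ => Bool) false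
      (resX (nat_lit 4096) (nat_lit 12) (Nat.mul (nat_lit 4096) b) (colQ b BL) (colQ b AL)
        (Es.getD b 0)) (kcQ b AL)) (b := kcQ b BL) h1
    obtain ⟨h4, h5⟩ := bct h3
    exact ⟨h2, h4, h5⟩
  rw [← okA_sum hB (fun b hb => (hh b hb).1) ct, ← okA_sum hA (fun b hb => (hh b hb).2.1) ct,
    ← sum_sub_distrib]
  refine (abs_sum_le_sum_abs _ _).trans ?_
  rw [← R.sum_getD, hE, Nat.cast_sum, mul_sum]
  exact sum_le_sum fun b hb => resX_sound hc (hh b (mem_range.1 hb)).2.2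

/-! ### Groups of lists -/

theorem evL_cat (ct : CT) (L : List (List (ℕ × ℕ))) :
    evL F ct (cat L) = (L.map (evL F ct)).sum := by
  induction L with
  | nil => simp [cat, evL]
  | cons m L ih =>
    have : cat (m :: L) = m ++ cat L := rfl
    rw [this, evL_append, ih, List.map_cons, List.sum_cons]

/-- sum over a group of wide lists. -/
theorem sum_catW (ct : CT) {g : List (List (ℕ × ℕ) × ℕ × ℕ)} {l : List (List (ℕ × ℕ))}
    (h : (g.map fun p => (p.1, p.2.2)) = l.map fun m => (m, 0)) :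
    (g.map fun p => vQ F ct p.2.2 p.1).sum = evL F ct (cat l) := by
  rw [evL_cat]
  have e1 : (g.map fun p => vQ F ct p.2.2 p.1)
      = (g.map fun p => (p.1, p.2.2)).map fun q : List (ℕ × ℕ) × ℕ => vQ F ct q.2 q.1 := by
    rw [List.map_map]; rfl
  rw [e1, h, List.map_map]
  congr 1

/-- sum over a group of narrow lists. -/
theorem sum_catN (ct : CT) {g : List (List (ℕ × ℕ) × ℕ × ℕ)} {l : List (List (ℕ × ℕ))}
    (h : (g.map fun p => (p.1, p.2.2)) = l.map fun m => (m, 1)) :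
    (g.map fun p => vQ F ct p.2.2 p.1).sum = H387.evL F ct (cat l) := by
  rw [R.evL_cat]
  have e1 : (g.map fun p => vQ F ct p.2.2 p.1)
      = (g.map fun p => (p.1, p.2.2)).map fun q : List (ℕ × ℕ) × ℕ => vQ F ct q.2 q.1 := by
    rw [List.map_map]; rfl
  rw [e1, h, List.map_map]
  congr 1

theorem sum_app (ct : CT) (g g' : List (List (ℕ × ℕ) × ℕ × ℕ)) :
    ((g ++ g').map fun p => vQ F ct p.2.2 p.1).sum = (g.map fun p => vQ F ct p.2.2 p.1).sum
      + (g'.map fun p => vQ F ct p.2.2 p.1).sum := by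
  rw [List.map_append, List.sum_append]

theorem rwW_cons {x : Fin 7 → Fin 7 → ℂ} {ct : CT} {m : List (ℕ × ℕ)} {l : List (List (ℕ × ℕ))}
    (h : RwW x ct m) (h' : RwW x ct (cat l)) : RwW x ct (cat (m :: l)) := RwW.app h h'

end Vale.Agent.P355.H998.Q
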