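import Vale.Agent.P355.H998.Q.Rz

/-! Residual with the tree scatter: many lists. -/

namespace Vale.Agent.P355.H998.Q

open Finset Vale.Agent.P355 Vale.Agent.P355.H387 H138 H693.Inj Vale.Agent.P355.H998.R

variable {F : Bool → Mt → ℝ}

/-- checks of the lists. -/
def ckZZ (N β : ℕ) (LL : List (List (ℕ × ℕ))) : Bool :=
  List.rec (motive := fun _ => Bool) true
    (fun L _ ih => Bool.rec (motive := fun _ => Bool) false ih (ckZ N β L)) LL

/-- sum of the magnitudes. -/
def sgZZ (on β : ℕ) (LL : List (List (ℕ × ℕ))) : ℕ :=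
  List.rec (motive := fun _ => ℕ) (nat_lit 0)
    (fun L _ ih => Nat.add (mgY on (zX β L)) ih) LL

/-- twice the sum of the negative magnitudes. -/
def snZZ (on β : ℕ) (LL : List (List (ℕ × ℕ))) : ℕ :=
  List.rec (motive := fun _ => ℕ) (nat_lit 0)
    (fun L _ ih => Nat.add (Nat.mul (nat_lit 2) (mnY on (zX β L))) ih) LL

theorem listsZ_VR {ct : CT} {β N : ℕ} {LL : List (List (ℕ × ℕ))} (hk : ckZZ N β LL = true) :
    VR N (sgZZ (onX N) β LL) (snZZ (onX N) β LL) (2 ^ 57 * lnLL LL)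
      (fun i => gv F ct (β + i)) (LL.map (evL F ct)).sum := by
  induction LL with
  | nil => exact VR.zero N _
  | cons L LL ih =>
    obtain ⟨h1, h2⟩ := bct (t := ckZZ N β LL) (b := ckZ N β L) hk
    have h3 := (tree_VR (F := F) (ct := ct) h1).add (ih h2)
    rw [List.map_cons, List.sum_cons]
    have e1 : 2 ^ 57 * lnLL (L :: LL) = 2 ^ 57 + 2 ^ 57 * lnLL LL := by
      have : lnLL (L :: LL) = 1 + lnLL LL := rfl
      rw [this]; ring
    rw [e1]
    exact h3

/-- **check of the residual**: lists `LB` minus the rows `LL`, classes `β ≤ i < β + N`. -/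
def resZ (N β : ℕ) (LB LL : List (List (ℕ × ℕ))) (E : ℕ) : Bool :=
  (fun on : ℕ => (fun T : ℕ => Bool.rec (motive := fun _ => Bool) false
    (Bool.rec (motive := fun _ => Bool) false
        (Bool.rec (motive := fun _ => Bool) false
          (Bool.rec (motive := fun _ => Bool) false
            (Bool.rec (motive := fun _ => Bool) false
              (Nat.ble (Nat.mod T (nat_lit 1208925819614629174706175)) E)
              (Nat.beq (Nat.land T (Nat.mul on (nat_lit 1208925747557035136778240)))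
                (nat_lit 0)))
            (ckZZ N β LL))
          (ckZZ N β LB))
        (Nat.ble (Nat.add (lnLL LB) (lnLL LL)) (nat_lit 131072)))
    (Nat.ble (Nat.add β N) (nat_lit 4194304)))
    (abX on (Nat.add (sgZZ on β LB) (snZZ on β LL)) (Nat.add (snZZ on β LB) (sgZZ on β LL))))
    (onX N)

/-- **the residual is small.** -/
theorem resZ_sound {c : ℝ} (hc : ∀ b M, |F b M| ≤ c) {ct : CT} {N β : ℕ}
    {LB LL : List (List (ℕ × ℕ))} {E : ℕ} (h : resZ N β LB LL E = true) :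
    |(LB.map (evL F ct)).sum - (LL.map (evL F ct)).sum| ≤ c * E := by
  obtain ⟨T, hT⟩ : ∃ T, T = abX (onX N) (Nat.add (sgZZ (onX N) β LB) (snZZ (onX N) β LL))
    (Nat.add (snZZ (onX N) β LB) (sgZZ (onX N) β LL)) := ⟨_, rfl⟩
  have h' : @Bool.rec (fun _ => Bool) false
    (@Bool.rec (fun _ => Bool) false
        (@Bool.rec (fun _ => Bool) false
          (@Bool.rec (fun _ => Bool) false
            (@Bool.rec (fun _ => Bool) false
              (Nat.ble (Nat.mod T (nat_lit 1208925819614629174706175)) E)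
              (Nat.beq (Nat.land T (Nat.mul (onX N) (nat_lit 1208925747557035136778240)))
                (nat_lit 0)))
            (ckZZ N β LL))
          (ckZZ N β LB))
        (Nat.ble (Nat.add (lnLL LB) (lnLL LL)) (nat_lit 131072)))
    (Nat.ble (Nat.add β N) (nat_lit 4194304)) = true := by rw [hT]; exact h
  obtain ⟨k1, h1⟩ := bct h'
  obtain ⟨k3, h3⟩ := bct h1
  obtain ⟨k4, h4⟩ := bct h3
  obtain ⟨k5, h5⟩ := bct h4
  obtain ⟨k6, h6⟩ := bct h5
  have k1 : β + N ≤ 4194304 := Nat.le_of_ble_eq_true k1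
  have k3 : lnLL LB + lnLL LL ≤ 131072 := Nat.le_of_ble_eq_true k3
  have k7 : T % 1208925819614629174706175 ≤ E := Nat.le_of_ble_eq_true h6
  have k6 := Nat.eq_of_beq_eq_true k6
  have v1 := listsZ_VR (F := F) (ct := ct) k4
  have v2 := listsZ_VR (F := F) (ct := ct) k5
  obtain ⟨a, b, a1, a2, a3, a4⟩ := v1.add v2.neg
  have hM : 2 ^ 57 * lnLL LB + 2 ^ 57 * lnLL LL < 2 ^ 79 := by
    rw [← Nat.mul_add]
    calc 2 ^ 57 * (lnLL LB + lnLL LL) ≤ 2 ^ 57 * 131072 := Nat.mul_le_mul_left _ k3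
      _ < 2 ^ 79 := by norm_num
  have ha : ∀ i < N, a i < 2 ^ 79 := fun i hi => lt_of_le_of_lt (a3 i hi).1 hM
  have hb : ∀ i < N, b i < 2 ^ 79 := fun i hi => lt_of_le_of_lt (a3 i hi).2 hM
  have eT : T = ofB N fun i => (a i - b i) + (b i - a i) := by
    rw [hT, ← abX_eq ha hb, ← a1, ← a2]
    rfl
  obtain ⟨t, ht⟩ : ∃ t : ℕ → ℕ, t = fun i => (a i - b i) + (b i - a i) := ⟨_, rfl⟩
  rw [← ht] at eT
  have ht79 : ∀ i < N, t i < 2 ^ 79 := by
    intro i hi
    have h1 := ha i hi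
    have h2 := hb i hi
    rw [ht]
    show (a i - b i) + (b i - a i) < 2 ^ 79
    generalize (2 : ℕ) ^ 79 = B at h1 h2 ⊢
    omega
  have hMk : Nat.mul (onX N) (nat_lit 1208925747557035136778240) = ofB N fun _ => 2 ^ 80 - 2 ^ 56 := by
    have : Nat.mul (onX N) (nat_lit 1208925747557035136778240) = onX N * 1208925747557035136778240 := rfl
    rw [this, onX_eq, ofB_mul]
    exact ofB_congr fun i _ => by norm_num
  rw [eT, hMk, land_ofB N _ _ (fun i hi => lt_trans (ht79 i hi) (by norm_num))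
    (fun i _ => by norm_num)] at k6
  have ht60 : ∀ i < N, t i ≤ 2 ^ 56 := by
    intro i hi
    have h1 : t i &&& (2 ^ 80 - 2 ^ 56) = 0 := ofB_zero_iff k6 i hi
    have h2 : t i = t i % 2 ^ 56 := by
      apply Nat.eq_of_testBit_eq
      intro q
      rw [Nat.testBit_mod_two_pow]
      by_cases q1 : q < 56
      · simp [q1]
      · by_cases q2 : q < 80
        · have h7 := congrArg (fun Y => Nat.testBit Y q) h1
          simp only [Nat.testBit_and, Nat.zero_testBit] at h7
          have h8 : (2 ^ 80 - 2 ^ 56 : ℕ).testBit q = true := by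
            have h9 : (2 ^ 80 - 2 ^ 56 : ℕ) = 2 ^ 56 * (2 ^ 24 - 1) := by norm_num
            rw [h9, Nat.testBit_two_pow_mul, Nat.testBit_two_pow_sub_one]
            have a1 : q ≥ 56 := by omega
            have a2 : q - 56 < 24 := by omega
            simp [a1, a2]
          rw [h8, Bool.and_true] at h7
          simp [q1, h7]
        · have h9 : (t i).testBit q = false := by
            apply Nat.testBit_lt_two_pow
            exact lt_of_lt_of_le (ht79 i hi) (Nat.pow_le_pow_right (by norm_num) (by omega))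
          simp [q1, h9]
    rw [h2]
    exact (Nat.mod_lt _ (by positivity)).le
  have hsum : ∑ i ∈ range N, t i < 2 ^ 80 - 1 := by
    have h1 : ∑ i ∈ range N, t i ≤ N * 2 ^ 56 := by
      calc ∑ i ∈ range N, t i ≤ ∑ _i ∈ range N, 2 ^ 56 :=
            sum_le_sum fun i hi => ht60 i (mem_range.1 hi)
        _ = N * 2 ^ 56 := by simp
    refine lt_of_le_of_lt h1 ?_
    calc N * 2 ^ 56 ≤ 4194304 * 2 ^ 56 := Nat.mul_le_mul_right _ (by omega)
      _ < 2 ^ 80 - 1 := by norm_num
  have hmod := ofB_mod N t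
  rw [Nat.mod_eq_of_lt hsum, ← eT] at hmod
  have k8 : ∑ i ∈ range N, t i ≤ E := by
    rw [← hmod]
    have : (2 ^ 80 - 1 : ℕ) = 1208925819614629174706175 := by norm_num
    rw [this]; exact k7
  have hu : ∀ i, |gv F ct (β + i)| ≤ c := fun i => hc _ _
  have hc0 : 0 ≤ c := (abs_nonneg _).trans (hu 0)
  rw [sub_eq_add_neg, a4]
  refine (abs_sum_le hu a b).trans (mul_le_mul_of_nonneg_left ?_ hc0)
  have : (∑ i ∈ range N, ((a i - b i) + (b i - a i)) : ℕ) ≤ E := by
    rw [ht] at k8; exact k8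
  exact_mod_cast this


/-- residual of block `b` (4096 identifiers), tree scatter. -/
def rT (BL AL : List (List (ℕ × ℕ) × ℕ × ℕ)) (b E : ℕ) : Bool :=
  Bool.rec (motive := fun _ => Bool) false
    (Bool.rec (motive := fun _ => Bool) false
      (resZ (nat_lit 4096) (Nat.mul (nat_lit 4096) b) (colQ b BL) (colQ b AL) E)
      (kcQ b AL)) (kcQ b BL)

/-- bound for block `b`. -/
def RT (ct : CT) (BL AL : List (List (ℕ × ℕ) × ℕ × ℕ)) (b E : ℕ) : Prop :=
  kcQ b BL = true ∧ kcQ b AL = true ∧ ∀ (F : Bool → Mt → ℝ) (c : ℝ), (∀ b M, |F b M| ≤ c) →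
    |((colQ b BL).map (evL F ct)).sum - ((colQ b AL).map (evL F ct)).sum| ≤ c * E

theorem RT.of (ct : CT) {BL AL : List (List (ℕ × ℕ) × ℕ × ℕ)} {b E : ℕ} (h : rT BL AL b E = true) :
    RT ct BL AL b E := by
  obtain ⟨h2, h3⟩ := bct (t := Bool.rec (motive := fun _ => Bool) false
      (resZ (nat_lit 4096) (Nat.mul (nat_lit 4096) b) (colQ b BL) (colQ b AL) E)
        (kcQ b AL)) (b := kcQ b BL) h
  obtain ⟨h4, h5⟩ := bct h3
  exact ⟨h2, h4, fun F c hc => resZ_sound hc h5⟩

theorem RT.ofQ (ct : CT) {BL AL : List (List (ℕ × ℕ) × ℕ × ℕ)} {b E : ℕ} (h : rQ BL AL b E = true) :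
    RT ct BL AL b E := by
  obtain ⟨h2, h3⟩ := bct (t := Bool.rec (motive := fun _ => Bool) false
      (resX (nat_lit 4096) (nat_lit 12) (Nat.mul (nat_lit 4096) b) (colQ b BL) (colQ b AL) E)
        (kcQ b AL)) (b := kcQ b BL) h
  obtain ⟨h4, h5⟩ := bct h3
  exact ⟨h2, h4, fun F c hc => resX_sound hc h5⟩

/-- bounds for consecutive blocks. -/
def HT (ct : CT) (BL AL : List (List (ℕ × ℕ) × ℕ × ℕ)) (b : ℕ) (Es : List ℕ) : Prop :=
  ∀ i < Es.length, RT ct BL AL (b + i) (Es.getD i 0)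

theorem HT.nil {ct : CT} {BL AL : List (List (ℕ × ℕ) × ℕ × ℕ)} {b : ℕ} : HT ct BL AL b [] := by
  intro i hi; simp at hi

theorem HT.cons {ct : CT} {BL AL : List (List (ℕ × ℕ) × ℕ × ℕ)} {b E : ℕ} {Es : List ℕ}
    (h : RT ct BL AL b E) (h' : HT ct BL AL (b + 1) Es) : HT ct BL AL b (E :: Es) := by
  intro i hi
  match i with
  | 0 => simpa using h
  | i + 1 =>
    have := h' i (by simpa using hi)
    rw [show b + (i + 1) = b + 1 + i from by ring]
    simpa using this

/-- **The total residual.** -/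
theorem totalT {c : ℝ} (hc : ∀ b M, |F b M| ≤ c) {ct : CT} {NB : ℕ}
    {BL AL : List (List (ℕ × ℕ) × ℕ × ℕ)} {Es : List ℕ} (hB : okA NB BL = true)
    (hA : okA NB AL = true) (hE : Es.length = NB) (h : HT ct BL AL 0 Es) :
    |(BL.map fun p => vQ F ct p.2.2 p.1).sum - (AL.map fun p => vQ F ct p.2.2 p.1).sum|
      ≤ c * ((Es.sum : ℕ) : ℝ) := by
  have hh : ∀ b < NB, RT ct BL AL b (Es.getD b 0) := by
    intro b hb
    have h1 := h b (by rw [hE]; exact hb)
    rw [zero_add] at h1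
    exact h1
  rw [← okA_sum hB (fun b hb => (hh b hb).1) ct, ← okA_sum hA (fun b hb => (hh b hb).2.1) ct,
    ← sum_sub_distrib]
  refine (abs_sum_le_sum_abs _ _).trans ?_
  rw [← R.sum_getD, hE, Nat.cast_sum, mul_sum]
  exact sum_le_sum fun b hb => (hh b (mem_range.1 hb)).2.2 F c hc

end Vale.Agent.P355.H998.Q
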