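import Vale.Agent.P355.H998.Q.Tr

/-! Residual with the tree scatter. -/

namespace Vale.Agent.P355.H998.Q

open Finset Vale.Agent.P355 Vale.Agent.P355.H387 H138 H693.Inj Vale.Agent.P355.H998.R

variable {F : Bool → Mt → ℝ}

/-! ### Dense numbers -/

theorem dense_VR {N Y : ℕ} {g : ℕ → ℕ} (hY : Y = ofB N g) (hg : ∀ i < N, g i < 2 ^ 80)
    (u : ℕ → ℝ) : VR N (mgY (onX N) Y) (2 * mnY (onX N) Y) (2 ^ 57) u
      (∑ i ∈ range N, wt (g i) * u i) := by
  have e1 : mgY (onX N) Y = ofB N fun i => g i / 2 ^ 23 % 2 ^ 56 :=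
    R.fld_eq hY hg (by norm_num) (by norm_num)
  have e2 : mnY (onX N) Y = ofB N fun i => (g i / 2 ^ 22 % 2) * (g i / 2 ^ 23 % 2 ^ 56) := by
    unfold mnY
    have e3 := R.flag_eq (s := 22) hY hg (by norm_num)
    have e4 := R.sel_eq (N := N) (w := 56) (M := 72057594037927935) (b := fun i => g i / 2 ^ 22 % 2) e1
      (fun i _ => lt_trans (Nat.mod_lt _ (by positivity)) (by norm_num))
      (fun i _ => by omega) (by norm_num) (by norm_num)
    have e5 : Nat.land (Nat.shiftRight Y (nat_lit 22)) (onX N) = ofB N fun i => g i / 2 ^ 22 % 2 := e3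
    rw [e5]
    have e6 : Nat.land (mgY (onX N) Y) (Nat.mul (ofB N fun i => g i / 2 ^ 22 % 2) (nat_lit 72057594037927935))
      = ofB N fun i => (g i / 2 ^ 22 % 2) * (g i / 2 ^ 23 % 2 ^ 56 % 2 ^ 56) := e4
    rw [e6]
    exact R.ofB_congr fun i _ => by rw [Nat.mod_mod]
  refine ⟨fun i => g i / 2 ^ 23 % 2 ^ 56, fun i => 2 * ((g i / 2 ^ 22 % 2) * (g i / 2 ^ 23 % 2 ^ 56)),
    e1, ?_, ?_, ?_⟩
  · rw [e2, mul_comm, ofB_mul]
    exact R.ofB_congr fun i _ => mul_comm _ _
  · intro i _
    have h5 : g i / 2 ^ 23 % 2 ^ 56 < 2 ^ 56 := Nat.mod_lt _ (by positivity)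
    have h6 : g i / 2 ^ 22 % 2 ≤ 1 := by omega
    have h7 : (g i / 2 ^ 22 % 2) * (g i / 2 ^ 23 % 2 ^ 56) ≤ 1 * (g i / 2 ^ 23 % 2 ^ 56) :=
      Nat.mul_le_mul_right _ h6
    rw [one_mul] at h7
    have h8 : (2 : ℕ) ^ 57 = 2 * 2 ^ 56 := by norm_num
    rw [h8]
    show g i / 2 ^ 23 % 2 ^ 56 ≤ 2 * 2 ^ 56 ∧ 2 * ((g i / 2 ^ 22 % 2) * (g i / 2 ^ 23 % 2 ^ 56)) ≤ 2 * 2 ^ 56
    generalize g i / 2 ^ 23 % 2 ^ 56 = z at h5 h7 ⊢
    generalize (g i / 2 ^ 22 % 2) * z = y at h7 ⊢
    generalize (2 : ℕ) ^ 56 = B at h5 ⊢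
    constructor <;> omega
  · refine sum_congr rfl fun i _ => ?_
    have a1' : ∀ a, Nat.land (Nat.shiftRight a 22) 1 = (a / 2 ^ 22) % 2 := fun a => by
      rw [land1]; exact congrArg (· % 2) (Nat.shiftRight_eq_div_pow _ _)
    have a2' : ∀ a, Nat.shiftRight a 23 = a / 2 ^ 23 := fun a => Nat.shiftRight_eq_div_pow _ _
    unfold wt sgn mag
    rw [a1', a2']
    push_cast
    ring

/-! ### The identifiers increase -/

/-- the identifiers increase strictly (`on`: one digit less). -/
def srX (on X : ℕ) : Bool :=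
  (fun H : ℕ => Nat.beq (Nat.land (Nat.sub (Nat.add
    (Nat.land (Nat.shiftRight X (nat_lit 80)) (Nat.mul on (nat_lit 4194303)))
    (Nat.mul on (nat_lit 604462909807314587353087))) (Nat.land X (Nat.mul on (nat_lit 4194303)))) H) H)
    (Nat.mul on (nat_lit 604462909807314587353088))

theorem en_tb (X j t : ℕ) : (en X j).testBit t = (decide (t < 80) && X.testBit (80 * j + t)) := by
  unfold en
  rw [Nat.testBit_mod_two_pow, Nat.testBit_shiftRight]

theorem on_mul (m c : ℕ) : Nat.mul (onX m) c = ofB m fun _ => c := by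
  have : Nat.mul (onX m) c = onX m * c := rfl
  rw [this, onX_eq, ofB_mul]
  exact R.ofB_congr fun i _ => by rw [one_mul]

theorem land_gen {m c X : ℕ} (hc : c < 2 ^ 80) :
    Nat.land X (ofB m fun _ => c) = ofB m fun j => Nat.land (en X j) c := by
  apply Nat.eq_of_testBit_eq
  intro k
  have h1 := ofB_testBit m (fun j => Nat.land (en X j) c)
    (fun i _ => lt_of_le_of_lt Nat.and_le_right hc) k
  rw [h1]
  show (X &&& (ofB m fun _ => c)).testBit k
    = (decide (k / 80 < m) && (en X (k / 80) &&& c).testBit (k % 80))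
  rw [Nat.testBit_and, Nat.testBit_and, ofB_testBit m _ fun i _ => hc, en_tb]
  have h1 : k % 80 < 80 := Nat.mod_lt _ (by norm_num)
  have h2 : 80 * (k / 80) + k % 80 = k := Nat.div_add_mod _ _
  rw [h2]
  cases decide (k / 80 < m) <;> simp [h1]

theorem srX_sound {m X : ℕ} (h : srX (onX m) X = true) :
    ∀ j < m, en X j % 2 ^ 22 < en X (j + 1) % 2 ^ 22 := by
  have h1 : Nat.land (Nat.sub (Nat.add
    (Nat.land (Nat.shiftRight X 80) (Nat.mul (onX m) 4194303))
    (Nat.mul (onX m) 604462909807314587353087)) (Nat.land X (Nat.mul (onX m) 4194303)))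
    (Nat.mul (onX m) 604462909807314587353088) = Nat.mul (onX m) 604462909807314587353088 :=
    Nat.eq_of_beq_eq_true h
  have e1 : ∀ a, Nat.land a 4194303 = a % 2 ^ 22 := fun a => Nat.and_two_pow_sub_one_eq_mod _ 22
  have e2 : ∀ j, en (Nat.shiftRight X 80) j = en X (j + 1) := fun j => by
    have := en_shr X 1 j
    rw [mul_one, add_comm 1 j] at this
    exact this
  have a1 : Nat.land (Nat.shiftRight X 80) (Nat.mul (onX m) 4194303)
      = ofB m fun j => en X (j + 1) % 2 ^ 22 := by
    rw [on_mul, land_gen (by norm_num)]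
    exact R.ofB_congr fun i _ => by rw [e1, e2]
  have a2 : Nat.land X (Nat.mul (onX m) 4194303) = ofB m fun j => en X j % 2 ^ 22 := by
    rw [on_mul, land_gen (by norm_num)]
    exact R.ofB_congr fun i _ => by rw [e1]
  rw [a1, a2, on_mul, on_mul] at h1
  have e3 : Nat.sub (Nat.add (ofB m fun j => en X (j + 1) % 2 ^ 22)
      (ofB m fun _ => 604462909807314587353087)) (ofB m fun j => en X j % 2 ^ 22)
      = ofB m fun j => en X (j + 1) % 2 ^ 22 + 604462909807314587353087 - en X j % 2 ^ 22 := by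
    show (ofB m fun j => en X (j + 1) % 2 ^ 22) + (ofB m fun _ => 604462909807314587353087)
      - (ofB m fun j => en X j % 2 ^ 22) = _
    rw [R.ofB_add, R.ofB_sub]
    intro i _
    have : en X i % 2 ^ 22 < 2 ^ 22 := Nat.mod_lt _ (by positivity)
    norm_num at this ⊢
    omega
  rw [e3, land_gen (by norm_num)] at h1
  have hlt : ∀ i < m, en X (i + 1) % 2 ^ 22 + 604462909807314587353087 - en X i % 2 ^ 22
      < 2 ^ 80 := by
    intro i _
    have : en X (i + 1) % 2 ^ 22 < 2 ^ 22 := Nat.mod_lt _ (by positivity)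
    norm_num at this ⊢
    omega
  intro j hj
  have h2 := R.ofB_inj (fun i _ => lt_of_le_of_lt Nat.and_le_right (by norm_num))
    (fun i _ => by norm_num) h1 j hj
  rw [en_ofB hlt hj] at h2
  have h3 : 604462909807314587353088 ≤
      en X (j + 1) % 2 ^ 22 + 604462909807314587353087 - en X j % 2 ^ 22 := by
    have := Nat.and_le_left (n := en X (j + 1) % 2 ^ 22 + 604462909807314587353087 - en X j % 2 ^ 22)
      (m := 604462909807314587353088)
    have h4 : (en X (j + 1) % 2 ^ 22 + 604462909807314587353087 - en X j % 2 ^ 22)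
      &&& 604462909807314587353088 = 604462909807314587353088 := h2
    rw [h4] at this
    exact this
  omega

/-! ### One list -/

/-- the scattered list. -/
def zX (β : ℕ) (L : List (ℕ × ℕ)) : ℕ :=
  (fun X n : ℕ => Bool.rec (motive := fun _ => ℕ)
    (Nat.shiftLeft (tsX (nat_lit 9) X) (Nat.mul (nat_lit 80) (Nat.sub (idX X) β))) (nat_lit 0)
    (Nat.beq n (nat_lit 0))) (jn L) (nn L)

/-- check of a list. -/
def ckZ (N β : ℕ) (L : List (ℕ × ℕ)) : Bool :=
  (fun n X : ℕ => Bool.rec (motive := fun _ => Bool)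
    (Bool.rec (motive := fun _ => Bool) false
      (Bool.rec (motive := fun _ => Bool) false
        (Bool.rec (motive := fun _ => Bool) false
          (Bool.rec (motive := fun _ => Bool) false
            (srX (onX (Nat.sub n (nat_lit 1))) X)
            (Nat.beq (Nat.land X (Nat.mul (onX n) (nat_lit 604462909807314587353088))) (nat_lit 0)))
          (Nat.ble β (idX X)))
        (Nat.ble (Nat.succ (idX (Nat.shiftRight X (Nat.mul (nat_lit 80) (Nat.sub n (nat_lit 1))))))
          (Nat.add β N)))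
      (Nat.ble n (nat_lit 4096)))
    true (Nat.beq n (nat_lit 0))) (nn L) (jn L)

theorem tree_sum {n X β : ℕ} (hn : n ≤ 4096) (hX : X < 2 ^ (80 * n))
    (hm : ∀ i j, i ≤ j → j < n → en X i % 2 ^ 22 ≤ en X j % 2 ^ 22)
    (hβ : 0 < n → β ≤ en X 0 % 2 ^ 22) :
    tsX 9 X * 2 ^ (80 * (en X 0 % 2 ^ 22 - β))
      = ∑ j ∈ range n, en X j * 2 ^ (80 * (en X j % 2 ^ 22 - β)) := by
  rw [tsX_eq 9 ⟨hX, hm⟩]
  unfold SX
  rw [sum_mul]
  have h1 : range n ⊆ range (2 ^ (9 + 3)) := by
    intro j hj
    rw [mem_range] at hj ⊢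
    have : (2 : ℕ) ^ (9 + 3) = 4096 := by norm_num
    omega
  rw [← sum_subset h1]
  · refine sum_congr rfl fun j hj => ?_
    have hj := mem_range.1 hj
    have h2 := hm 0 j (by omega) hj
    have h3 := hβ (by omega)
    rw [mul_assoc, ← pow_add, ← Nat.mul_add]
    congr 3
    omega
  · intro j _ hj
    rw [mem_range, not_lt] at hj
    have : en X j = 0 := by
      unfold en
      rw [Nat.shiftRight_eq_div_pow, Nat.div_eq_of_lt, Nat.zero_mod]
      exact lt_of_lt_of_le hX (Nat.pow_le_pow_right (by norm_num) (by omega))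
    rw [this, zero_mul, zero_mul]

/-- spreading a function over positions. -/
theorem spread {n N : ℕ} {p : ℕ → ℕ} (hp : ∀ j < n, p j < N)
    (hi : ∀ i j, i < n → j < n → p i = p j → i = j) {α : Type*} [AddCommMonoid α] (f : ℕ → α) :
    ∀ i, (∃ j, j < n ∧ p j = i ∧ (∑ j ∈ range n, if p j = i then f j else 0) = f j) ∨
      ((∀ j < n, p j ≠ i) ∧ (∑ j ∈ range n, if p j = i then f j else 0) = 0) := by
  intro i
  by_cases h : ∃ j, j < n ∧ p j = i
  · obtain ⟨j, h1, h2⟩ := h
    refine Or.inl ⟨j, h1, h2, ?_⟩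
    rw [sum_eq_single j]
    · rw [if_pos h2]
    · intro k hk hkj
      rw [if_neg]
      intro h3
      exact hkj (hi k j (mem_range.1 hk) h1 (h3.trans h2.symm))
    · intro h3
      exact absurd (mem_range.2 h1) h3
  · have h' : ∀ j < n, p j ≠ i := fun j hj hji => h ⟨j, hj, hji⟩
    refine Or.inr ⟨h', sum_eq_zero fun j hj => ?_⟩
    rw [if_neg (h' j (mem_range.1 hj))]

theorem tree_VR {ct : CT} {L : List (ℕ × ℕ)} {β N : ℕ} (hk : ckZ N β L = true) :
    VR N (mgY (onX N) (zX β L)) (2 * mnY (onX N) (zX β L)) (2 ^ 57)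
      (fun i => gv F ct (β + i)) (evL F ct L) := by
  obtain ⟨n, hn⟩ : ∃ n, n = nn L := ⟨_, rfl⟩
  obtain ⟨X, hXe⟩ : ∃ X, X = jn L := ⟨_, rfl⟩
  have hX : X < 2 ^ (80 * n) := by rw [hn, hXe]; exact jn_lt L
  have hev : evL F ct L = ∑ j ∈ range n, ev F ct (en X j) := by rw [evL_sum, hn, hXe]
  have hk1 : @Bool.rec (fun _ => Bool)
    (@Bool.rec (fun _ => Bool) false
      (@Bool.rec (fun _ => Bool) false
        (@Bool.rec (fun _ => Bool) false
          (@Bool.rec (fun _ => Bool) false
            (srX (onX (Nat.sub n 1)) X)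
            (Nat.beq (Nat.land X (Nat.mul (onX n) 604462909807314587353088)) 0))
          (Nat.ble β (idX X)))
        (Nat.ble (Nat.succ (idX (Nat.shiftRight X (Nat.mul 80 (Nat.sub n 1)))))
          (Nat.add β N)))
      (Nat.ble n 4096))
    true (Nat.beq n 0) = true := by rw [hn, hXe]; exact hk
  have hz1 : zX β L = @Bool.rec (fun _ => ℕ)
    (Nat.shiftLeft (tsX 9 X) (Nat.mul 80 (Nat.sub (idX X) β))) 0
    (Nat.beq n 0) := by rw [hn, hXe]; rfl
  by_cases h0 : n = 0
  · have e1 : zX β L = 0 := by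
      rw [hz1, h0]
      rfl
    have e2 : evL F ct L = ∑ i ∈ range N, wt 0 * gv F ct (β + i) := by
      rw [hev, h0, wt_zero]
      simp
    rw [e1, e2]
    exact dense_VR (g := fun _ => 0) (by simp [ofB]) (fun _ _ => by norm_num) _
  · have hb0 : Nat.beq n 0 = false := by
      rw [Bool.eq_false_iff]
      intro h6
      exact h0 (Nat.eq_of_beq_eq_true h6)
    rw [hb0] at hk1 hz1
    obtain ⟨k1, h1⟩ := bct hk1
    obtain ⟨k2, h2⟩ := bct h1
    obtain ⟨k3, h3⟩ := bct h2
    obtain ⟨k4, h4⟩ := bct h3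
    have k1 : n ≤ 4096 := Nat.le_of_ble_eq_true k1
    have k2 : idX (Nat.shiftRight X (Nat.mul 80 (Nat.sub n 1))) + 1 ≤ β + N :=
      Nat.le_of_ble_eq_true k2
    have k3 : β ≤ idX X := Nat.le_of_ble_eq_true k3
    have k4 := Nat.eq_of_beq_eq_true k4
    have k5 := srX_sound h4
    have e9 : Nat.sub n 1 = n - 1 := rfl
    rw [e9] at k2 k5
    have k2' : en X (n - 1) % 2 ^ 22 + 1 ≤ β + N := by
      have := idX_eq (Nat.shiftRight X (80 * (n - 1)))
      rw [en_shr, add_zero] at this
      rw [← this]; exact k2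
    rw [idX_eq] at k3
    -- small entries
    have k4' : ∀ j < n, en X j < 2 ^ 79 := by
      rw [on_mul, land_gen (by norm_num)] at k4
      intro j hj
      have h7 : en X j &&& 604462909807314587353088 = 0 := R.ofB_zero_iff k4 j hj
      have h8 : (en X j).testBit 79 = false := by
        have h9 := congrArg (fun Y => Nat.testBit Y 79) h7
        simp only [Nat.testBit_and, Nat.zero_testBit] at h9
        have h10 : (604462909807314587353088 : ℕ).testBit 79 = true := by
          rw [show (604462909807314587353088 : ℕ) = 2 ^ 79 by norm_num, Nat.testBit_two_pow_self]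
        rw [h10, Bool.and_true] at h9
        exact h9
      apply R.lt79_of _ (en_lt X j)
      have h11 := Nat.toNat_testBit (en X j) 79
      rw [h8] at h11
      exact h11.symm
    -- strictly increasing
    have hs : ∀ i d, i + d < n → en X i % 2 ^ 22 + d ≤ en X (i + d) % 2 ^ 22 := by
      intro i d
      induction d with
      | zero => intro _; exact le_rfl
      | succ d ih =>
        intro hd
        have a1 := ih (by omega)
        have a2 := k5 (i + d) (by omega)
        rw [show i + (d + 1) = i + d + 1 by ring]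
        omega
    have hm : ∀ i j, i ≤ j → j < n → en X i % 2 ^ 22 ≤ en X j % 2 ^ 22 := by
      intro i j hij hj
      have := hs i (j - i) (by omega)
      rw [show i + (j - i) = j by omega] at this
      omega
    have hinj : ∀ i j, i < n → j < n → en X i % 2 ^ 22 = en X j % 2 ^ 22 → i = j := by
      intro i j hi hj he
      rcases le_total i j with h | h
      · have := hs i (j - i) (by omega)
        rw [show i + (j - i) = j by omega] at this
        omega
      · have := hs j (i - j) (by omega)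
        rw [show j + (i - j) = i by omega] at this
        omega
    obtain ⟨p, hp⟩ : ∃ p : ℕ → ℕ, p = fun j => en X j % 2 ^ 22 - β := ⟨_, rfl⟩
    have hge : ∀ j < n, β ≤ en X j % 2 ^ 22 := fun j hj =>
      le_trans k3 (hm 0 j (by omega) hj)
    have hpj : ∀ j < n, en X j % 2 ^ 22 = β + p j := by
      intro j hj
      have := hge j hj
      rw [hp]
      show _ = β + (en X j % 2 ^ 22 - β)
      omega
    have hpN : ∀ j < n, p j < N := by
      intro j hj
      have h5 := hm j (n - 1) (by omega) (by omega)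
      have h6 := hpj j hj
      omega
    have hpi : ∀ i j, i < n → j < n → p i = p j → i = j := by
      intro i j hi hj he
      apply hinj i j hi hj
      rw [hpj i hi, hpj j hj, he]
    obtain ⟨g, hg⟩ : ∃ g : ℕ → ℕ, g = fun i => ∑ j ∈ range n, if p j = i then en X j else 0 :=
      ⟨_, rfl⟩
    have hZ : zX β L = ofB N g := by
      have e1 : zX β L = tsX 9 X * 2 ^ (80 * (en X 0 % 2 ^ 22 - β)) := by
        rw [hz1]
        show Nat.shiftLeft (tsX 9 X) (80 * (idX X - β)) = _
        rw [shl_eq, idX_eq]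
      rw [e1, tree_sum k1 hX hm (fun _ => k3), hg]
      unfold ofB
      have e2 : ∀ i ∈ range N, (∑ j ∈ range n, if p j = i then en X j else 0) * 2 ^ (80 * i)
          = ∑ j ∈ range n, if p j = i then en X j * 2 ^ (80 * p j) else 0 := by
        intro i _
        rw [sum_mul]
        refine sum_congr rfl fun j _ => ?_
        by_cases h : p j = i
        · rw [if_pos h, if_pos h, h]
        · rw [if_neg h, if_neg h, zero_mul]
      rw [sum_congr rfl e2, sum_comm]
      refine sum_congr rfl fun j hj => ?_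
      have hj := mem_range.1 hj
      rw [sum_ite_eq, if_pos (mem_range.2 (hpN j hj)), hp]
    have hg80 : ∀ i < N, g i < 2 ^ 80 := by
      intro i _
      rw [hg]
      rcases spread hpN hpi (fun j => en X j) i with ⟨j, _, _, h7⟩ | ⟨_, h7⟩
      · show (∑ j ∈ range n, if p j = i then en X j else 0) < _
        rw [h7]; exact en_lt X j
      · show (∑ j ∈ range n, if p j = i then en X j else 0) < _
        rw [h7]; norm_num
    have hV : evL F ct L = ∑ i ∈ range N, wt (g i) * gv F ct (β + i) := by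
      have e1 : ∀ i ∈ range N, wt (g i) * gv F ct (β + i)
          = ∑ j ∈ range n, if p j = i then wt (en X j) * gv F ct (β + p j) else 0 := by
        intro i _
        rw [hg]
        show wt (∑ j ∈ range n, if p j = i then en X j else 0) * _ = _
        rcases spread hpN hpi (fun j => en X j) i with ⟨j, h5, h6, h7⟩ | ⟨h6, h7⟩
        · rw [h7]
          rw [sum_eq_single j]
          · rw [if_pos h6, h6]
          · intro k hk hkj
            rw [if_neg]
            intro h8
            exact hkj (hpi k j (mem_range.1 hk) h5 (h8.trans h6.symm))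
          · intro h8
            exact absurd (mem_range.2 h5) h8
        · rw [h7, wt_zero, zero_mul]
          symm
          exact sum_eq_zero fun j hj => if_neg (h6 j (mem_range.1 hj))
      rw [hev, sum_congr rfl e1, sum_comm]
      refine sum_congr rfl fun j hj => ?_
      have hj := mem_range.1 hj
      rw [sum_ite_eq, if_pos (mem_range.2 (hpN j hj)), ev_gv ct (k4' j hj), ← hpj j hj]
      unfold gv
      rw [Nat.mod_mod]
    rw [hZ, hV]
    exact dense_VR rfl hg80 _

end Vale.Agent.P355.H998.Q
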