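import Vale.Agent.P355.H998.R.Sc
import Vale.Agent.P355.H998.Q.Ac

/-! Packed scatter: moving the entries of a sparse list to their global positions. -/

namespace Vale.Agent.P355.H998.Q

open Finset Vale.Agent.P355 Vale.Agent.P355.H387 H138 H693.Inj Vale.Agent.P355.H998.R

/-! ### General facts -/

theorem ofB_congr {n : ℕ} {f g : ℕ → ℕ} (h : ∀ i < n, f i = g i) : ofB n f = ofB n g :=
  sum_congr rfl fun i hi => by rw [h i (mem_range.1 hi)]

theorem ofB_add (n : ℕ) (f g : ℕ → ℕ) : ofB n f + ofB n g = ofB n fun i => f i + g i := by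
  unfold ofB
  rw [← sum_add_distrib]
  exact sum_congr rfl fun i _ => by ring

theorem ofB_lt (n : ℕ) : ∀ (f : ℕ → ℕ), (∀ i < n, f i < 2 ^ 80) → ofB n f < 2 ^ (80 * n) := by
  induction n with
  | zero => intro f _; simp [ofB]
  | succ n ih =>
    intro f hf
    rw [ofB_succ]
    have h1 := ih (fun i => f (i + 1)) fun i hi => hf (i + 1) (by omega)
    have h2 := hf 0 (by omega)
    have e : (2 : ℕ) ^ (80 * (n + 1)) = 2 ^ 80 * 2 ^ (80 * n) := by
      rw [← pow_add]; congr 1; ring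
    rw [e]
    calc 2 ^ 80 * ofB n (fun i => f (i + 1)) + f 0
        < 2 ^ 80 * ofB n (fun i => f (i + 1)) + 2 ^ 80 := by omega
      _ = 2 ^ 80 * (ofB n (fun i => f (i + 1)) + 1) := by ring
      _ ≤ 2 ^ 80 * 2 ^ (80 * n) := Nat.mul_le_mul_left _ h1

theorem ofB_en (n : ℕ) : ∀ X, X < 2 ^ (80 * n) → X = ofB n fun j => en X j := by
  intro X hX
  apply Nat.eq_of_testBit_eq
  intro k
  rw [ofB_testBit n _ fun i _ => en_lt X i]
  by_cases hk : k / 80 < n
  · unfold en
    rw [Nat.testBit_mod_two_pow, Nat.testBit_shiftRight]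
    have h1 : k % 80 < 80 := Nat.mod_lt _ (by norm_num)
    have h2 : 80 * (k / 80) + k % 80 = k := Nat.div_add_mod k 80
    simp [hk, h1, h2]
  · have h1 : X.testBit k = false := by
      apply Nat.testBit_lt_two_pow
      refine lt_of_lt_of_le hX (Nat.pow_le_pow_right (by norm_num) ?_)
      omega
    simp [hk, h1]

theorem tb79 {d : ℕ} (h : d < 2 ^ 80) (h' : 2 ^ 79 ≤ d) : d.testBit 79 = true := by
  rw [Nat.testBit_eq_decide_div_mod_eq]
  have h1 : d / 2 ^ 79 = 1 := by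
    rw [Nat.div_eq_iff (by positivity)]
    constructor <;> omega
  rw [h1]; rfl

/-- flags. -/
theorem flag_eq {N X s : ℕ} {f : ℕ → ℕ} (hX : X = ofB N f) (hf : ∀ i < N, f i < 2 ^ 80)
    (hs : s < 80) :
    Nat.land (Nat.shiftRight X s) (onX N) = ofB N fun i => f i / 2 ^ s % 2 := by
  apply Nat.eq_of_testBit_eq
  intro k
  rw [ofB_testBit N _ fun i _ => lt_of_lt_of_le (Nat.mod_lt _ (by norm_num)) (by norm_num)]
  show ((X >>> s) &&& (onX N)).testBit k = _
  rw [onX_eq, Nat.testBit_and, Nat.testBit_shiftRight, ofB_testBit N _ fun i _ => by norm_num]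
  by_cases hk : k % 80 = 0
  · have e1 : (s + k) / 80 = k / 80 := by omega
    have e2 : (s + k) % 80 = s := by omega
    rw [hX, ofB_testBit N f hf, e1, e2, hk, Nat.testBit_eq_decide_div_mod_eq (i := s)]
    cases decide (k / 80 < N)
    · simp
    · simp only [Bool.true_and]
      rcases Nat.mod_two_eq_zero_or_one (f (k / 80) / 2 ^ s) with h | h <;> rw [h] <;> rfl
  · obtain ⟨t, ht⟩ : ∃ t, k % 80 = t + 1 := ⟨k % 80 - 1, by omega⟩
    rw [ht]
    have e4 : (1 : ℕ).testBit (t + 1) = false := by rw [Nat.testBit_succ]; simp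
    have e3 : (f (k / 80) / 2 ^ s % 2).testBit (t + 1) = false := by
      rcases Nat.mod_two_eq_zero_or_one (f (k / 80) / 2 ^ s) with h | h <;> rw [h]
      · simp
      · exact e4
    rw [e3, e4]; simp

/-- selecting digits by flags. -/
theorem sel_eq {N X w M : ℕ} {f b : ℕ → ℕ} (hX : X = ofB N f) (hf : ∀ i < N, f i < 2 ^ 80)
    (hb : ∀ i < N, b i = 0 ∨ b i = 1) (hw : w ≤ 80) (hM : M = 2 ^ w - 1) :
    Nat.land X (Nat.mul (ofB N b) M) = ofB N fun i => b i * (f i % 2 ^ w) := by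
  have hM2 : M < 2 ^ 80 := by
    rw [hM]
    have : (2 : ℕ) ^ w ≤ 2 ^ 80 := Nat.pow_le_pow_right (by norm_num) hw
    have h2 : 0 < (2 : ℕ) ^ w := by positivity
    omega
  have e0 : Nat.mul (ofB N b) M = ofB N b * M := rfl
  rw [e0, ofB_mul, hX, land_ofB N _ _ hf (fun i hi => by
    rcases hb i hi with h | h <;> rw [h]
    · simp
    · rw [one_mul]; exact hM2)]
  refine ofB_congr fun i hi => ?_
  rcases hb i hi with h | h
  · rw [h, zero_mul, zero_mul]; exact Nat.and_zero _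
  · rw [h, one_mul, one_mul, hM]
    exact Nat.and_two_pow_sub_one_eq_mod _ _

/-! ### One stage -/

/-- number with occupied digits. -/
structure Rp (N X : ℕ) (f : ℕ → ℕ) : Prop where
  eq : X = ofB N f
  lt : ∀ i < N, f i < 2 ^ 80
  oc : ∀ i < N, f i = 0 ∨ 2 ^ 79 ≤ f i

/-- digits to be moved. -/
def mvX (on s X : ℕ) : ℕ := Nat.land X (Nat.mul (Nat.land (Nat.shiftRight X s) on)
  (nat_lit 1208925819614629174706175))

/-- a stage. -/
def stV (on s X : ℕ) : ℕ :=
  (fun mv : ℕ => Nat.add (Nat.sub X mv) (Nat.shiftLeft mv (Nat.shiftLeft (nat_lit 80) s)))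
    (mvX on s X)

/-- check of a stage. -/
def stC (on nb s X : ℕ) : Bool :=
  (fun mv : ℕ => (fun sh : ℕ => Nat.beq (Nat.lor (Nat.land (Nat.sub X mv) sh)
    (Nat.shiftRight sh nb)) (nat_lit 0)) (Nat.shiftLeft mv (Nat.shiftLeft (nat_lit 80) s)))
    (mvX on s X)

/-- weight of an entry. -/
noncomputable def wt (e : ℕ) : ℝ := (1 - 2 * (sgn e : ℝ)) * ((mag e % 2 ^ 56 : ℕ) : ℝ)

theorem wt_zero : wt 0 = 0 := by
  unfold wt mag
  have : Nat.shiftRight 0 23 = 0 := rfl
  rw [this]; simp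

/-- meaning of a number before the stages `< s`. -/
noncomputable def MM (N : ℕ) (u : ℕ → ℝ) (s : ℕ) (f : ℕ → ℕ) : ℝ :=
  ∑ p ∈ range N, wt (f p) * u (p + f p % 2 ^ s)

theorem shift_sum (N K : ℕ) (φ : ℕ → ℝ) (h : ∀ i < N, N ≤ i + K → φ i = 0) :
    ∑ p ∈ range N, (if K ≤ p then φ (p - K) else 0) = ∑ i ∈ range N, φ i := by
  rcases Nat.lt_or_ge N K with hK | hK
  · rw [sum_eq_zero fun p hp => by rw [if_neg (by have := mem_range.1 hp; omega)],
      sum_eq_zero fun i hi => h i (mem_range.1 hi) (by omega)]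
  · obtain ⟨M, rfl⟩ : ∃ M, N = K + M := ⟨N - K, by omega⟩
    rw [sum_range_add, sum_eq_zero fun p hp => by rw [if_neg (by have := mem_range.1 hp; omega)],
      zero_add, sum_congr rfl fun p _ => by rw [if_pos (Nat.le_add_right K p), Nat.add_sub_cancel_left]]
    have h1 : K + M = M + K := Nat.add_comm K M
    rw [h1, sum_range_add]
    have h2 : ∑ x ∈ range K, φ (M + x) = 0 :=
      sum_eq_zero fun i hi => h _ (by have := mem_range.1 hi; omega) (by omega)
    rw [h2, add_zero]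

theorem ofB_shift {N K : ℕ} {g : ℕ → ℕ} (hg : ∀ i < N, g i < 2 ^ 80)
    (h : Nat.shiftRight (ofB N g * 2 ^ (80 * K)) (80 * N) = 0) :
    (∀ i < N, N ≤ i + K → g i = 0) ∧
      ofB N g * 2 ^ (80 * K) = ofB N fun p => if K ≤ p then g (p - K) else 0 := by
  have hlt : ofB N g * 2 ^ (80 * K) < 2 ^ (80 * N) := by
    have h1 : (ofB N g * 2 ^ (80 * K)) / 2 ^ (80 * N) = 0 := by
      rw [← Nat.shiftRight_eq_div_pow]; exact h
    exact Nat.lt_of_div_eq_zero (by positivity) h1
  have hz : ∀ i < N, N ≤ i + K → g i = 0 := by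
    intro i hi hK
    by_contra h0
    have h1 : g i * 2 ^ (80 * i) ≤ ofB N g :=
      single_le_sum (f := fun i => g i * 2 ^ (80 * i)) (fun _ _ => Nat.zero_le _) (mem_range.2 hi)
    have h2 : 2 ^ (80 * i) ≤ ofB N g := le_trans (Nat.le_mul_of_pos_left _ (Nat.pos_of_ne_zero h0)) h1
    have h3 : 2 ^ (80 * i) * 2 ^ (80 * K) ≤ ofB N g * 2 ^ (80 * K) := Nat.mul_le_mul_right _ h2
    rw [← pow_add] at h3
    have h4 : (2 : ℕ) ^ (80 * N) ≤ 2 ^ (80 * i + 80 * K) :=
      Nat.pow_le_pow_right (by norm_num) (by omega)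
    omega
  refine ⟨hz, ?_⟩
  apply Nat.eq_of_testBit_eq
  intro k
  rw [ofB_testBit N _ fun i hi => by
    split_ifs
    · exact hg _ (by omega)
    · positivity]
  rw [mul_comm, Nat.testBit_two_pow_mul, ofB_testBit N g hg]
  by_cases h1 : K ≤ k / 80
  · have e1 : (k - 80 * K) / 80 = k / 80 - K := by omega
    have e2 : (k - 80 * K) % 80 = k % 80 := by omega
    have e3 : k ≥ 80 * K := by omega
    rw [e1, e2, if_pos h1]
    by_cases h2 : k / 80 < N
    · have e4 : k / 80 - K < N := by omega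
      simp [e3, h2, e4]
    · by_cases h3 : k / 80 - K < N
      · have e5 := hz _ h3 (by omega)
        rw [e5]; simp
      · simp [h2, h3]
  · have e3 : ¬ k ≥ 80 * K := by omega
    rw [if_neg h1]
    simp [e3]

/-- **one stage keeps the meaning.** -/
theorem stage {N X s : ℕ} {f : ℕ → ℕ} (h : Rp N X f) (hs : s < 80)
    (hk : stC (onX N) (80 * N) s X = true) :
    ∃ f', Rp N (stV (onX N) s X) f' ∧ ∀ u, MM N u s f' = MM N u (s + 1) f := by
  have hb : ∀ i < N, f i / 2 ^ s % 2 = 0 ∨ f i / 2 ^ s % 2 = 1 := fun i _ => by omega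
  have e1 : mvX (onX N) s X = ofB N fun i => (f i / 2 ^ s % 2) * f i := by
    unfold mvX
    rw [flag_eq h.eq h.lt hs, sel_eq (w := 80) h.eq h.lt hb le_rfl (by norm_num)]
    exact ofB_congr fun i hi => by rw [Nat.mod_eq_of_lt (h.lt i hi)]
  have hstC : stC (onX N) (80 * N) s X = Nat.beq (Nat.lor (Nat.land (Nat.sub X (mvX (onX N) s X))
    (Nat.shiftLeft (mvX (onX N) s X) (Nat.shiftLeft 80 s)))
    (Nat.shiftRight (Nat.shiftLeft (mvX (onX N) s X) (Nat.shiftLeft 80 s)) (80 * N))) 0 := rfl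
  have hstV : stV (onX N) s X = (X - mvX (onX N) s X)
    + Nat.shiftLeft (mvX (onX N) s X) (Nat.shiftLeft 80 s) := rfl
  rw [hstC] at hk
  obtain ⟨h1, h2⟩ := nlor (Nat.eq_of_beq_eq_true hk)
  have e2 : Nat.shiftLeft 80 s = 80 * 2 ^ s := shl_eq _ _
  have e3 : X - mvX (onX N) s X = ofB N fun i => (1 - f i / 2 ^ s % 2) * f i := by
    have h3 : X = (ofB N fun i => (1 - f i / 2 ^ s % 2) * f i) + mvX (onX N) s X := by
      rw [e1, ofB_add, h.eq]
      refine ofB_congr fun i hi => ?_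
      rcases hb i hi with hh | hh <;> rw [hh] <;> simp
    omega
  rw [e2, shl_eq] at h1 h2 hstV
  rw [e1] at h1 h2 hstV
  have hmv : ∀ i < N, (f i / 2 ^ s % 2) * f i < 2 ^ 80 := by
    intro i hi
    rcases hb i hi with hh | hh <;> rw [hh]
    · simp
    · rw [one_mul]; exact h.lt i hi
  obtain ⟨hz, e4⟩ := ofB_shift hmv h2
  have e3' : X - ofB N (fun i => (f i / 2 ^ s % 2) * f i)
      = ofB N fun i => (1 - f i / 2 ^ s % 2) * f i := by rw [← e1]; exact e3
  have e3'' : Nat.sub X (ofB N fun i => (f i / 2 ^ s % 2) * f i)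
      = ofB N fun i => (1 - f i / 2 ^ s % 2) * f i := e3'
  rw [e3'', e4] at h1
  rw [e3', e4, ofB_add] at hstV
  obtain ⟨g, hg⟩ : ∃ g : ℕ → ℕ, g = fun i => (1 - f i / 2 ^ s % 2) * f i := ⟨_, rfl⟩
  obtain ⟨r, hr⟩ : ∃ r : ℕ → ℕ, r = fun p => if 2 ^ s ≤ p then (f (p - 2 ^ s) / 2 ^ s % 2)
    * f (p - 2 ^ s) else 0 := ⟨_, rfl⟩
  have g1 : ∀ i < N, g i < 2 ^ 80 ∧ (g i = 0 ∨ 2 ^ 79 ≤ g i) := by
    intro i hi
    rw [hg]
    show (1 - f i / 2 ^ s % 2) * f i < 2 ^ 80 ∧ _
    rcases hb i hi with hh | hh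
    · simp only [hh]
      simpa using ⟨h.lt i hi, h.oc i hi⟩
    · simp only [hh]
      simp
  have r1 : ∀ i < N, r i < 2 ^ 80 ∧ (r i = 0 ∨ 2 ^ 79 ≤ r i) := by
    intro i hi
    rw [hr]
    by_cases hK : 2 ^ s ≤ i
    · simp only [if_pos hK]
      rcases hb (i - 2 ^ s) (by omega) with hh | hh
      · simp only [hh]
        simp
      · simp only [hh]
        simpa using ⟨h.lt (i - 2 ^ s) (by omega), h.oc (i - 2 ^ s) (by omega)⟩
    · simp only [if_neg hK]
      simp
  rw [← hg, ← hr] at h1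
  have hdis : ∀ p < N, g p = 0 ∨ r p = 0 := by
    intro p hp
    by_contra hne
    rw [not_or] at hne
    have a1 : 2 ^ 79 ≤ g p := by
      rcases (g1 p hp).2 with hh | hh
      · exact absurd hh hne.1
      · exact hh
    have a2 : 2 ^ 79 ≤ r p := by
      rcases (r1 p hp).2 with hh | hh
      · exact absurd hh hne.2
      · exact hh
    have h3 := congrArg (fun Y => Nat.testBit Y (80 * p + 79)) h1
    have h4 : (ofB N g &&& ofB N r).testBit (80 * p + 79) = false := by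
      have := h3
      simpa using this
    rw [Nat.testBit_and, ofB_testBit N g (fun i hi => (g1 i hi).1),
      ofB_testBit N r (fun i hi => (r1 i hi).1)] at h4
    have e5 : (80 * p + 79) / 80 = p := by omega
    have e6 : (80 * p + 79) % 80 = 79 := by omega
    rw [e5, e6, tb79 (g1 p hp).1 a1, tb79 (r1 p hp).1 a2] at h4
    simp [hp] at h4
  refine ⟨fun i => g i + r i, ⟨?_, ?_, ?_⟩, ?_⟩
  · rw [hstV, hg, hr]
  · intro i hi
    show g i + r i < 2 ^ 80
    rcases hdis i hi with hh | hh <;> rw [hh]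
    · rw [zero_add]; exact (r1 i hi).1
    · rw [add_zero]; exact (g1 i hi).1
  · intro i hi
    show g i + r i = 0 ∨ 2 ^ 79 ≤ g i + r i
    rcases hdis i hi with hh | hh <;> rw [hh]
    · rw [zero_add]; exact (r1 i hi).2
    · rw [add_zero]; exact (g1 i hi).2
  · intro u
    unfold MM
    have a1 : ∀ p ∈ range N, wt (g p + r p) * u (p + (g p + r p) % 2 ^ s)
        = wt (g p) * u (p + g p % 2 ^ s) + wt (r p) * u (p + r p % 2 ^ s) := by
      intro p hp
      rcases hdis p (mem_range.1 hp) with hh | hh <;> rw [hh, wt_zero]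
      · rw [zero_add, zero_mul, zero_add]
      · rw [add_zero, zero_mul, add_zero]
    rw [sum_congr rfl a1, sum_add_distrib]
    have a2 : ∀ p ∈ range N, wt (r p) * u (p + r p % 2 ^ s)
        = if 2 ^ s ≤ p then (fun i => wt ((f i / 2 ^ s % 2) * f i)
            * u (i + 2 ^ s + ((f i / 2 ^ s % 2) * f i) % 2 ^ s)) (p - 2 ^ s) else 0 := by
      intro p _
      rw [hr]
      by_cases hK : 2 ^ s ≤ p
      · simp only [if_pos hK]
        rw [Nat.sub_add_cancel hK]
      · simp only [if_neg hK]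
        rw [wt_zero, zero_mul]
    have a3 := shift_sum N (2 ^ s) (fun i => wt ((f i / 2 ^ s % 2) * f i)
            * u (i + 2 ^ s + ((f i / 2 ^ s % 2) * f i) % 2 ^ s)) (fun i hi hK => by
      show wt ((f i / 2 ^ s % 2) * f i) * _ = 0
      rw [hz i hi hK, wt_zero, zero_mul])
    have a4 := (sum_congr rfl a2).trans a3
    rw [a4, ← sum_add_distrib]
    refine sum_congr rfl fun i hi => ?_
    have hi' := mem_range.1 hi
    rw [hg]
    have e7 : f i % 2 ^ (s + 1) = f i % 2 ^ s + 2 ^ s * (f i / 2 ^ s % 2) := Nat.mod_pow_succ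
    rw [e7]
    rcases hb i hi' with hh | hh
    · simp only [hh]
      rw [zero_mul, wt_zero]
      simp
    · simp only [hh]
      rw [one_mul, Nat.sub_self, zero_mul, wt_zero, zero_mul, zero_add, mul_one]
      congr 2
      ring

/-- `S` stages. -/
def xsX (on : ℕ) (S : ℕ) : ℕ → ℕ :=
  Nat.rec (motive := fun _ => ℕ → ℕ) (fun X => X) (fun s ih X => ih (stV on s X)) S

/-- check of `S` stages. -/
def csX (on nb : ℕ) (S : ℕ) : ℕ → Bool :=
  Nat.rec (motive := fun _ => ℕ → Bool) (fun _ => true)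
    (fun s ih X => Bool.rec (motive := fun _ => Bool) false (ih (stV on s X)) (stC on nb s X)) S

theorem stages {N : ℕ} (S : ℕ) (hS : S ≤ 80) : ∀ {X : ℕ} {f : ℕ → ℕ}, Rp N X f →
    csX (onX N) (80 * N) S X = true →
    ∃ f', Rp N (xsX (onX N) S X) f' ∧ ∀ u, MM N u 0 f' = MM N u S f := by
  induction S with
  | zero => intro X f h _; exact ⟨f, h, fun _ => rfl⟩
  | succ s ih =>
    intro X f h hk
    obtain ⟨h1, h2⟩ := bct (t := csX (onX N) (80 * N) s (stV (onX N) s X))
      (b := stC (onX N) (80 * N) s X) hk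
    obtain ⟨f1, a1, a2⟩ := stage h (by omega) h1
    obtain ⟨f2, b1, b2⟩ := ih (by omega) a1 h2
    exact ⟨f2, b1, fun u => (b2 u).trans (a2 u)⟩

end Vale.Agent.P355.H998.Q
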