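import Vale.Agent.P355.H998.Q.Gl

/-! Tree scatter of sparse lists. -/

namespace Vale.Agent.P355.H998.Q

open Finset Vale.Agent.P355 Vale.Agent.P355.H387 H138 H693.Inj Vale.Agent.P355.H998.R

variable {F : Bool → Mt → ℝ}

/-- identifier of the first entry. -/
def idX (X : ℕ) : ℕ := Nat.land X (nat_lit 4194303)

/-- eight entries at their relative positions. -/
def lfX (X : ℕ) : ℕ := (fun i0 : ℕ => (Nat.add (Nat.add (Nat.add (Nat.land X (nat_lit 1208925819614629174706175))
    (Nat.shiftLeft (Nat.land (Nat.shiftRight X (nat_lit 80)) (nat_lit 1208925819614629174706175))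
    (Nat.mul (nat_lit 80) (Nat.sub (Nat.land (Nat.shiftRight X (nat_lit 80)) (nat_lit 4194303)) i0))))
    (Nat.add (Nat.shiftLeft (Nat.land (Nat.shiftRight X (nat_lit 160)) (nat_lit 1208925819614629174706175))
    (Nat.mul (nat_lit 80) (Nat.sub (Nat.land (Nat.shiftRight X (nat_lit 160)) (nat_lit 4194303)) i0)))
    (Nat.shiftLeft (Nat.land (Nat.shiftRight X (nat_lit 240)) (nat_lit 1208925819614629174706175))
    (Nat.mul (nat_lit 80) (Nat.sub (Nat.land (Nat.shiftRight X (nat_lit 240)) (nat_lit 4194303)) i0)))))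
    (Nat.add (Nat.add (Nat.shiftLeft (Nat.land (Nat.shiftRight X (nat_lit 320)) (nat_lit 1208925819614629174706175))
    (Nat.mul (nat_lit 80) (Nat.sub (Nat.land (Nat.shiftRight X (nat_lit 320)) (nat_lit 4194303)) i0)))
    (Nat.shiftLeft (Nat.land (Nat.shiftRight X (nat_lit 400)) (nat_lit 1208925819614629174706175))
    (Nat.mul (nat_lit 80) (Nat.sub (Nat.land (Nat.shiftRight X (nat_lit 400)) (nat_lit 4194303)) i0))))
    (Nat.add (Nat.shiftLeft (Nat.land (Nat.shiftRight X (nat_lit 480)) (nat_lit 1208925819614629174706175))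
    (Nat.mul (nat_lit 80) (Nat.sub (Nat.land (Nat.shiftRight X (nat_lit 480)) (nat_lit 4194303)) i0)))
    (Nat.shiftLeft (Nat.land (Nat.shiftRight X (nat_lit 560)) (nat_lit 1208925819614629174706175))
    (Nat.mul (nat_lit 80) (Nat.sub (Nat.land (Nat.shiftRight X (nat_lit 560)) (nat_lit 4194303)) i0))))))) (Nat.land X (nat_lit 4194303))

/-- `2 ^ (L + 3)` entries at their relative positions. -/
def tsX (L : ℕ) : ℕ → ℕ :=
  Nat.rec (motive := fun _ => ℕ → ℕ) (fun X => lfX X)
    (fun L ih X => (fun X' : ℕ => Bool.rec (motive := fun _ => ℕ)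
      (Nat.add (ih X) (Nat.shiftLeft (ih X') (Nat.mul (nat_lit 80) (Nat.sub (idX X') (idX X)))))
      (ih X) (Nat.beq X' (nat_lit 0)))
      (Nat.shiftRight X (Nat.mul (nat_lit 640) (Nat.shiftLeft (nat_lit 1) L)))) L

/-- the sum described by the tree. -/
def SX (n X : ℕ) : ℕ := ∑ j ∈ range n, en X j * 2 ^ (80 * (en X j % 2 ^ 22 - en X 0 % 2 ^ 22))

/-- at most `n` digits, identifiers do not decrease. -/
def MX (n X : ℕ) : Prop := X < 2 ^ (80 * n) ∧
  ∀ i j, i ≤ j → j < n → en X i % 2 ^ 22 ≤ en X j % 2 ^ 22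

theorem idX_eq (X : ℕ) : idX X = en X 0 % 2 ^ 22 := by
  have h1 : idX X = X % 2 ^ 22 := Nat.and_two_pow_sub_one_eq_mod _ 22
  rw [h1]
  unfold en
  rw [mul_zero, Nat.shiftRight_zero]
  exact (Nat.mod_mod_of_dvd _ (Nat.pow_dvd_pow 2 (by norm_num))).symm

theorem en_shr (X m j : ℕ) : en (Nat.shiftRight X (80 * m)) j = en X (m + j) := by
  unfold en
  show (X >>> (80 * m)) >>> (80 * j) % _ = _
  rw [← Nat.shiftRight_add, Nat.mul_add]

theorem land_en (X : ℕ) : Nat.land X 1208925819614629174706175 = en X 0 := by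
  have h1 : Nat.land X 1208925819614629174706175 = X % 2 ^ 80 :=
    Nat.and_two_pow_sub_one_eq_mod _ 80
  rw [h1]
  unfold en
  rw [mul_zero, Nat.shiftRight_zero]

theorem tm_eq (X k i0 : ℕ) (h0 : i0 = en X 0 % 2 ^ 22) :
    Nat.shiftLeft (Nat.land (Nat.shiftRight X (80 * k)) 1208925819614629174706175)
      (Nat.mul 80 (Nat.sub (Nat.land (Nat.shiftRight X (80 * k)) 4194303) i0))
    = en X k * 2 ^ (80 * (en X k % 2 ^ 22 - en X 0 % 2 ^ 22)) := by
  have e1 : Nat.land (Nat.shiftRight X (80 * k)) 4194303 = en X k % 2 ^ 22 := by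
    have := idX_eq (Nat.shiftRight X (80 * k))
    rw [en_shr, add_zero] at this
    exact this
  rw [land_en, en_shr, add_zero, e1, shl_eq, h0]
  rfl

theorem lfX_eq (X : ℕ) : lfX X = SX 8 X := by
  have h0 : Nat.land X 4194303 = en X 0 % 2 ^ 22 := idX_eq X
  have g : ∀ k, Nat.shiftLeft (Nat.land (Nat.shiftRight X (80 * k)) 1208925819614629174706175)
      (Nat.mul 80 (Nat.sub (Nat.land (Nat.shiftRight X (80 * k)) 4194303) (Nat.land X 4194303)))
    = en X k * 2 ^ (80 * (en X k % 2 ^ 22 - en X 0 % 2 ^ 22)) := fun k => tm_eq X k _ h0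
  have e0 : Nat.land X 1208925819614629174706175
      = en X 0 * 2 ^ (80 * (en X 0 % 2 ^ 22 - en X 0 % 2 ^ 22)) := by
    rw [land_en, Nat.sub_self, mul_zero, pow_zero, mul_one]
  have g1 := g 1
  have g2 := g 2
  have g3 := g 3
  have g4 := g 4
  have g5 := g 5
  have g6 := g 6
  have g7 := g 7
  norm_num only at g1 g2 g3 g4 g5 g6 g7
  have h : lfX X = Nat.add (Nat.add (Nat.add (Nat.land X 1208925819614629174706175)
      (Nat.shiftLeft (Nat.land (Nat.shiftRight X 80) 1208925819614629174706175)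
        (Nat.mul 80 (Nat.sub (Nat.land (Nat.shiftRight X 80) 4194303) (Nat.land X 4194303)))))
      (Nat.add
      (Nat.shiftLeft (Nat.land (Nat.shiftRight X 160) 1208925819614629174706175)
        (Nat.mul 80 (Nat.sub (Nat.land (Nat.shiftRight X 160) 4194303) (Nat.land X 4194303))))
      (Nat.shiftLeft (Nat.land (Nat.shiftRight X 240) 1208925819614629174706175)
        (Nat.mul 80 (Nat.sub (Nat.land (Nat.shiftRight X 240) 4194303) (Nat.land X 4194303))))))
      (Nat.add (Nat.add
      (Nat.shiftLeft (Nat.land (Nat.shiftRight X 320) 1208925819614629174706175)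
        (Nat.mul 80 (Nat.sub (Nat.land (Nat.shiftRight X 320) 4194303) (Nat.land X 4194303))))
      (Nat.shiftLeft (Nat.land (Nat.shiftRight X 400) 1208925819614629174706175)
        (Nat.mul 80 (Nat.sub (Nat.land (Nat.shiftRight X 400) 4194303) (Nat.land X 4194303)))))
      (Nat.add
      (Nat.shiftLeft (Nat.land (Nat.shiftRight X 480) 1208925819614629174706175)
        (Nat.mul 80 (Nat.sub (Nat.land (Nat.shiftRight X 480) 4194303) (Nat.land X 4194303))))
      (Nat.shiftLeft (Nat.land (Nat.shiftRight X 560) 1208925819614629174706175)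
        (Nat.mul 80 (Nat.sub (Nat.land (Nat.shiftRight X 560) 4194303) (Nat.land X 4194303)))))) := rfl
  rw [h, g1, g2, g3, g4, g5, g6, g7, e0]
  unfold SX
  simp only [sum_range_succ, range_zero, sum_empty]
  simp only [Nat.add_eq]
  ring_nf

theorem tsX_succ (L X : ℕ) : tsX (L + 1) X = Bool.rec (motive := fun _ => ℕ)
      (tsX L X + tsX L (Nat.shiftRight X (80 * 2 ^ (L + 3)))
        * 2 ^ (80 * (idX (Nat.shiftRight X (80 * 2 ^ (L + 3))) - idX X)))
      (tsX L X) (Nat.beq (Nat.shiftRight X (80 * 2 ^ (L + 3))) 0) := by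
  have e1 : Nat.mul (nat_lit 640) (Nat.shiftLeft (nat_lit 1) L) = 80 * 2 ^ (L + 3) := by
    show 640 * Nat.shiftLeft 1 L = _
    rw [shl_eq, one_mul, pow_add]
    ring
  have e2 : tsX (L + 1) X = Bool.rec (motive := fun _ => ℕ)
      (Nat.add (tsX L X) (Nat.shiftLeft (tsX L (Nat.shiftRight X (Nat.mul (nat_lit 640)
        (Nat.shiftLeft (nat_lit 1) L)))) (Nat.mul (nat_lit 80) (Nat.sub (idX (Nat.shiftRight X
        (Nat.mul (nat_lit 640) (Nat.shiftLeft (nat_lit 1) L)))) (idX X)))))
      (tsX L X) (Nat.beq (Nat.shiftRight X (Nat.mul (nat_lit 640)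
        (Nat.shiftLeft (nat_lit 1) L))) (nat_lit 0)) := rfl
  rw [e2, e1, shl_eq]
  rfl

theorem tsX_eq (L : ℕ) : ∀ {n X : ℕ}, MX n X → tsX L X = SX (2 ^ (L + 3)) X := by
  induction L with
  | zero => intro n X _; exact lfX_eq X
  | succ L ih =>
    intro n X h
    obtain ⟨m, hm⟩ : ∃ m, m = 2 ^ (L + 3) := ⟨_, rfl⟩
    have hm2 : 2 ^ (L + 1 + 3) = m + m := by rw [hm, show L + 1 + 3 = (L + 3) + 1 by ring, pow_succ]; ring
    rw [tsX_succ, ← hm, hm2]
    have hX' : MX (n - m) (Nat.shiftRight X (80 * m)) := by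
      constructor
      · show X >>> (80 * m) < _
        rw [Nat.shiftRight_eq_div_pow, Nat.div_lt_iff_lt_mul (by positivity), ← pow_add]
        refine lt_of_lt_of_le h.1 (Nat.pow_le_pow_right (by norm_num) ?_)
        omega
      · intro i j hij hj
        rw [en_shr, en_shr]
        exact h.2 _ _ (by omega) (by omega)
    have hS : SX (m + m) X = SX m X
        + SX m (Nat.shiftRight X (80 * m))
          * 2 ^ (80 * (idX (Nat.shiftRight X (80 * m)) - idX X)) := by
      unfold SX
      rw [sum_range_add, sum_mul]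
      congr 1
      refine sum_congr rfl fun j _ => ?_
      rw [idX_eq, idX_eq, en_shr, en_shr, add_zero, mul_assoc, ← pow_add, ← Nat.mul_add]
      by_cases hz : en X (m + j) = 0
      · rw [hz, zero_mul, zero_mul]
      · have hlt : m + j < n := by
          by_contra hc
          apply hz
          unfold en
          rw [Nat.shiftRight_eq_div_pow, Nat.div_eq_of_lt, Nat.zero_mod]
          exact lt_of_lt_of_le h.1 (Nat.pow_le_pow_right (by norm_num) (by omega))
        have h1 := h.2 0 m (by omega) (by omega)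
        have h2 := h.2 m (m + j) (by omega) hlt
        congr 3
        omega
    cases hb : Nat.beq (Nat.shiftRight X (80 * m)) 0 with
    | true =>
      have h0 : Nat.shiftRight X (80 * m) = 0 := Nat.eq_of_beq_eq_true hb
      show tsX L X = _
      rw [ih h, ← hm, hS, h0]
      have : SX m 0 = 0 := by
        unfold SX
        exact sum_eq_zero fun j _ => by simp [en]
      rw [this, zero_mul, add_zero]
    | false =>
      show tsX L X + tsX L (Nat.shiftRight X (80 * m)) * _ = _
      rw [ih h, ih hX', ← hm, hS]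

end Vale.Agent.P355.H998.Q
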